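import Mathlib

namespace Vale.Agent.P166

open MeasureTheory Matrix Filter Topology

/-- The pressure of the Ising model with coupling matrix `J`, uniform spin prior, diagonal terms
included, no external field. -/
noncomputable def pressure (N : ℕ) (β : ℝ) (J : Matrix (Fin N) (Fin N) ℝ) : ℝ :=
  (1 / (N : ℝ)) * Real.log ((2 : ℝ)⁻¹ ^ N *
    ∑ σ ∈ Fintype.piFinset (fun _ : Fin N => ({-1, 1} : Finset ℝ)),
      Real.exp (β / 2 * (σ ⬝ᵥ (J *ᵥ σ))))

/-- The standing assumptions on the deterministic spectra `Λ N` (one real vector of length `N` for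
each `N`): the empirical measures converge weakly to `μ`, and the smallest and the largest
eigenvalues converge to the minimum and the maximum of the support of `μ`. -/
structure Admissible (Λ : (N : ℕ) → Fin N → ℝ) (μ : Measure ℝ) : Prop where
  weak : ∀ f : BoundedContinuousFunction ℝ ℝ,
    Tendsto (fun N : ℕ => (1 / (N : ℝ)) * ∑ i, f (Λ N i)) atTop (𝓝 (∫ x, f x ∂μ))
  smallest : Tendsto (fun N : ℕ => ⨅ i, Λ N i) atTop (𝓝 (sInf μ.support))
  largest : Tendsto (fun N : ℕ => ⨆ i, Λ N i) atTop (𝓝 (sSup μ.support))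

end Vale.Agent.P166
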